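import Vale.Agent.P274.Homog

namespace Vale.Agent.Results.P274.QuasiCircular

open Set Filter Topology Vale.Agent.P274

/-- P274, Q2, for quasi-circular domains: a bounded domain in complex affine space containing
the centre of a positive weighted circle action, with a compact quotient by some group of
biholomorphisms, is homogeneous, and is bounded symmetric when the weights are odd. -/
theorem result : ∀ (N : ℕ) (U : Set (Fin N → ℂ)), IsOpen U → IsConnected U →
    Bornology.IsBounded U →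
    ∀ (Γ : Type) [Group Γ] [MulAction Γ U],
      (∀ γ : Γ, ∃ f : (Fin N → ℂ) → (Fin N → ℂ),
        DifferentiableOn ℂ f U ∧ ∀ x : U, f x = ↑(γ • x)) →
      CompactSpace (Quotient (MulAction.orbitRel Γ U)) →
    ∀ w : Fin N → ℕ, (∀ j, 0 < w j) → (0 : Fin N → ℂ) ∈ U →
      (∀ t : ℝ, ∀ z ∈ U,
        (fun j => Complex.exp (((t * w j : ℝ) : ℂ) * Complex.I) * z j) ∈ U) →
    (∀ x ∈ U, ∀ y ∈ U, ∃ f g : (Fin N → ℂ) → (Fin N → ℂ),
        DifferentiableOn ℂ f U ∧ DifferentiableOn ℂ g U ∧ MapsTo f U U ∧ MapsTo g U U ∧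
        (∀ z ∈ U, g (f z) = z) ∧ (∀ z ∈ U, f (g z) = z) ∧ f x = y) ∧
    ((∀ j, Odd (w j)) →
      ∀ a ∈ U, ∃ s : (Fin N → ℂ) → (Fin N → ℂ),
        DifferentiableOn ℂ s U ∧ MapsTo s U U ∧ (∀ z ∈ U, s (s z) = z) ∧ s a = a ∧
        ∀ z ∈ U, s z = z → z = a) := by
  intro N U hU hconn hbdd Γ _ _ hhol hcpt w hw h0 hrot
  choose F hFd hFe using hhol
  -- every element of the group gives an automorphism
  have hmaps : ∀ γ : Γ, MapsTo (F γ) U U := by
    intro γ x hx
    rw [hFe γ ⟨x, hx⟩]
    exact (γ • (⟨x, hx⟩ : U)).2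
  let A : Γ → Aut U := fun γ =>
    { toFun := F γ
      invFun := F γ⁻¹
      mapsTo := hmaps γ
      mapsTo' := hmaps γ⁻¹
      diff := hFd γ
      diff' := hFd γ⁻¹
      left_inv := fun x hx => by
        rw [hFe γ ⟨x, hx⟩, hFe γ⁻¹, inv_smul_smul]
      right_inv := fun x hx => by
        rw [hFe γ⁻¹ ⟨x, hx⟩, hFe γ, smul_inv_smul] }
  haveI : ContinuousConstSMul Γ U := ⟨fun γ => by
    rw [continuous_induced_rng]
    refine ((hFd γ).continuousOn.restrict).congr fun x => ?_
    simp [hFe γ x]⟩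
  -- a compact set meeting every orbit
  have hπ : IsOpenQuotientMap (Quotient.mk (MulAction.orbitRel Γ U)) :=
    MulAction.isOpenQuotientMap_quotientMk
  have hball : ∀ x : U, ∃ ε > 0, Metric.closedBall (x : Fin N → ℂ) ε ⊆ U := fun x =>
    Metric.nhds_basis_closedBall.mem_iff.1 (hU.mem_nhds x.2)
  choose ε hε hεU using hball
  obtain ⟨S, hS⟩ := hcpt.isCompact_univ.elim_finite_subcover
    (fun x : U => Quotient.mk (MulAction.orbitRel Γ U) ''
      (Subtype.val ⁻¹' Metric.ball (x : Fin N → ℂ) (ε x)))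
    (fun x => hπ.isOpenMap _ (Metric.isOpen_ball.preimage continuous_subtype_val))
    (fun q _ => by
      obtain ⟨x, rfl⟩ := Quotient.exists_rep q
      exact mem_iUnion.2 ⟨x, mem_image_of_mem _ (Metric.mem_ball_self (hε x))⟩)
  have hcocpt : ∃ K, IsCompact K ∧ K ⊆ U ∧ ∀ x ∈ U, ∃ f : Aut U, f.toFun x ∈ K := by
    refine ⟨⋃ x ∈ S, Metric.closedBall (x : Fin N → ℂ) (ε x),
      S.finite_toSet.isCompact_biUnion fun x _ => isCompact_closedBall _ _,
      iUnion₂_subset fun x _ => hεU x, fun x hx => ?_⟩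
    obtain ⟨i, hi, y, hy, hyx⟩ := mem_iUnion₂.1 (hS (mem_univ (Quotient.mk _ (⟨x, hx⟩ : U))))
    obtain ⟨γ, hγ⟩ := (Quotient.exact hyx : y ∈ MulAction.orbit Γ (⟨x, hx⟩ : U))
    refine ⟨A γ, mem_iUnion₂.2 ⟨i, hi, ?_⟩⟩
    show F γ x ∈ _
    rw [hFe γ ⟨x, hx⟩, show γ • (⟨x, hx⟩ : U) = y from hγ]
    exact Metric.ball_subset_closedBall hy
  have d : QCData U w :=
    { isOpen := hU
      preconn := hconn.isPreconnected
      bdd := hbdd
      wpos := hw
      zero_mem := h0
      rot := fun ζ hζ z hz => by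
        obtain ⟨t, rfl⟩ := exists_exp_of_norm_one hζ
        have e : wsmul w (Complex.exp ((t : ℂ) * Complex.I)) z =
            fun j => Complex.exp (((t * w j : ℝ) : ℂ) * Complex.I) * z j := by
          funext j
          rw [wsmul, ← Complex.exp_nat_mul]
          congr 2
          push_cast
          ring
        rw [e]
        exact hrot t z hz
      cocpt := hcocpt }
  refine ⟨fun x hx y hy => ?_, fun hodd a ha => ?_⟩
  · obtain ⟨f, hf⟩ := d.homogeneous hx
    obtain ⟨g, hg⟩ := d.homogeneous hy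
    refine ⟨(f.symm.trans g).toFun, (f.symm.trans g).invFun, (f.symm.trans g).diff,
      (f.symm.trans g).diff', (f.symm.trans g).mapsTo, (f.symm.trans g).mapsTo',
      (f.symm.trans g).left_inv, (f.symm.trans g).right_inv, ?_⟩
    show g.toFun (f.invFun x) = y
    rw [← hf, f.left_inv 0 h0, hg]
  · obtain ⟨f, hf⟩ := d.homogeneous ha
    have hneg : ∀ z ∈ U, -z ∈ U := by
      intro z hz
      have := d.rot (-1) (by simp) z hz
      have e : wsmul w (-1) z = -z := by
        funext j; simp [wsmul, (hodd j).neg_one_pow]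
      rwa [e] at this
    refine ⟨fun z => f.toFun (-(f.invFun z)), ?_, ?_, ?_, ?_, ?_⟩
    · exact f.diff.comp f.diff'.neg (fun z hz => hneg _ (f.mapsTo' hz))
    · exact fun z hz => f.mapsTo (hneg _ (f.mapsTo' hz))
    · intro z hz
      simp only
      rw [f.left_inv _ (hneg _ (f.mapsTo' hz)), neg_neg, f.right_inv z hz]
    · simp only
      rw [← hf, f.left_inv 0 h0, neg_zero]
    · intro z hz hfix
      have h1 := congrArg f.invFun hfix
      simp only at h1
      rw [f.left_inv _ (hneg _ (f.mapsTo' hz))] at h1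
      have h2 : f.invFun z = 0 := by
        funext j
        have := congrFun h1 j
        simp only [Pi.neg_apply] at this
        simp only [Pi.zero_apply]
        linear_combination (-(1 : ℂ) / 2) * this
      rw [← hf, ← h2, f.right_inv z hz]

end Vale.Agent.Results.P274.QuasiCircular
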